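import Vale.Agent.P201.Z.PC

/-! P201, part D1 (StmtVK): walks, complexes with chosen base vertices, the inequality
`V + F ≤ E + 1` for connected and dual connected complexes.  helper575. -/

namespace Vale.Agent.P201.Z.VK

open Finset

/-- walk `l` from `u` to `v` -/
def Wk {V E : Type} (org : E × Bool → V) : V → List (E × Bool) → V → Prop
  | u, [], v => u = v
  | u, d :: l, v => org d = u ∧ Wk org (org (rv d)) l v

@[simp] theorem rv_rv {E : Type} (d : E × Bool) : rv (rv d) = d := by
  simp [rv]

theorem rv_ne {E : Type} (d : E × Bool) : rv d ≠ d := by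
  intro h
  have := congrArg Prod.snd h
  simp [rv] at this

@[simp] theorem rv_fst {E : Type} (d : E × Bool) : (rv d).1 = d.1 := rfl

section walks

variable {V E V' E' : Type} {org : E × Bool → V} {org' : E' × Bool → V'}

@[simp] theorem wk_nil {u v : V} : Wk org u [] v ↔ u = v := Iff.rfl

@[simp] theorem wk_cons {u v : V} {d : E × Bool} {l : List (E × Bool)} :
    Wk org u (d :: l) v ↔ org d = u ∧ Wk org (org (rv d)) l v := Iff.rfl

theorem wk_append {u v : V} {l m : List (E × Bool)} :
    Wk org u (l ++ m) v ↔ ∃ w, Wk org u l w ∧ Wk org w m v := by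
  induction l generalizing u with
  | nil => simp
  | cons d l ih =>
    simp only [List.cons_append, wk_cons, ih]
    constructor
    · rintro ⟨h, w, h1, h2⟩
      exact ⟨w, ⟨h, h1⟩, h2⟩
    · rintro ⟨w, ⟨h, h1⟩, h2⟩
      exact ⟨h, w, h1, h2⟩

theorem wk_map {φ : V → V'} {ψ : E × Bool → E' × Bool} {l : List (E × Bool)}
    (h1 : ∀ x ∈ l, org' (ψ x) = φ (org x)) (h2 : ∀ x ∈ l, org' (rv (ψ x)) = φ (org (rv x)))
    {u v : V} (h : Wk org u l v) : Wk org' (φ u) (l.map ψ) (φ v) := by
  induction l generalizing u with
  | nil => simp only [wk_nil] at h; subst h; simp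
  | cons d l ih =>
    obtain ⟨h3, h4⟩ := h
    simp only [List.map_cons, wk_cons]
    refine ⟨?_, ?_⟩
    · rw [h1 d (by simp), h3]
    · rw [h2 d (by simp)]
      exact ih (fun x hx => h1 x (by simp [hx])) (fun x hx => h2 x (by simp [hx])) h4

/-- lifting a walk along an injection -/
theorem wk_lift {φ : V' → V} (hφ : Function.Injective φ) {ψ : E' × Bool → E × Bool}
    {l : List (E' × Bool)}
    (h1 : ∀ x ∈ l, org (ψ x) = φ (org' x)) (h2 : ∀ x ∈ l, org (rv (ψ x)) = φ (org' (rv x)))
    {u v : V'} (h : Wk org (φ u) (l.map ψ) (φ v)) : Wk org' u l v := by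
  induction l generalizing u with
  | nil => simpa using hφ h
  | cons d l ih =>
    simp only [List.map_cons, wk_cons] at h
    obtain ⟨h3, h4⟩ := h
    rw [h2 d (by simp)] at h4
    refine ⟨hφ ?_, ih (fun x hx => h1 x (by simp [hx])) (fun x hx => h2 x (by simp [hx])) h4⟩
    rw [← h1 d (by simp), h3]

theorem wk_chain {u v : V} {l : List (E × Bool)} (h : Wk org u l v) :
    l.IsChain (fun a b => org b = org (rv a)) := by
  induction l generalizing u with
  | nil => simp
  | cons d l ih =>
    obtain ⟨_, h4⟩ := h
    cases l with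
    | nil => simp
    | cons e l =>
      rw [List.isChain_cons_cons]
      exact ⟨h4.1, ih h4⟩

theorem wk_head {u v : V} {l : List (E × Bool)} (h : Wk org u l v) :
    ∀ b ∈ l.head?, org b = u := by
  cases l with
  | nil => simp
  | cons d l => simpa using h.1

theorem wk_last {u v : V} {l : List (E × Bool)} (h : Wk org u l v) :
    ∀ b ∈ l.getLast?, org (rv b) = v := by
  induction l generalizing u with
  | nil => simp
  | cons d l ih =>
    obtain ⟨_, h4⟩ := h
    cases l with
    | nil => simpa using h4
    | cons e l =>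
      rw [List.getLast?_cons_cons]
      exact ih h4

theorem wk_closed {u : V} {l : List (E × Bool)} (h : Wk org u l u) :
    ∀ a ∈ l.getLast?, ∀ b ∈ l.head?, org b = org (rv a) := by
  intro a ha b hb
  rw [wk_head h b hb, wk_last h a ha]

/-- telescoping -/
theorem wk_tele {M : Type} [AddCommGroup M] (g : V → M) {u v : V} {l : List (E × Bool)}
    (h : Wk org u l v) : (l.map (fun x => g (org (rv x)) - g (org x))).sum = g v - g u := by
  induction l generalizing u with
  | nil => simp only [wk_nil] at h; subst h; simp
  | cons d l ih =>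
    obtain ⟨h3, h4⟩ := h
    rw [List.map_cons, List.sum_cons, ih h4, h3]
    abel

/-- a property of vertices kept by all darts of a walk -/
theorem wk_inv {P : V → Prop} {l : List (E × Bool)} (hl : ∀ x ∈ l, P (org x) ↔ P (org (rv x)))
    {u v : V} (h : Wk org u l v) : ∀ x ∈ l, (P (org x) ↔ P u) := by
  induction l generalizing u with
  | nil => simp
  | cons d l ih =>
    obtain ⟨h3, h4⟩ := h
    intro x hx
    rcases List.mem_cons.1 hx with rfl | hx
    · rw [h3]
    · rw [ih (fun y hy => hl y (by simp [hy])) h4 x hx, ← hl d (by simp), h3]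

end walks

/-- planar complex with chosen start vertices of the face walks -/
structure QC (A : Type) where
  V : Type
  E : Type
  F : Type
  [fV : Fintype V]
  [fE : Fintype E]
  [fF : Fintype F]
  [dV : DecidableEq V]
  [dE : DecidableEq E]
  [dF : DecidableEq F]
  org : E × Bool → V
  lab : E → A
  bd : Option F → List (E × Bool)
  root : Option F → V
  wk : ∀ f, Wk org (root f) (bd f) (root f)
  once : ∀ d, ∑ f, (bd f).count d = 1
  ne : ∀ f : F, bd (some f) ≠ []
  conn : ∀ u v : V, Relation.ReflTransGen (fun a b => ∃ d, org d = a ∧ org (rv d) = b) u v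
  dconn : ∀ f g : Option F, Relation.ReflTransGen (fun a b => ∃ d, d ∈ bd a ∧ rv d ∈ bd b) f g
  euler : Fintype.card V + Fintype.card F = Fintype.card E + 1

attribute [instance] QC.fV QC.fE QC.fF QC.dV QC.dE QC.dF

/-- the planar complex -/
def QC.toPC {A : Type} (K : QC A) : PC A where
  V := K.V
  E := K.E
  F := K.F
  org := K.org
  lab := K.lab
  bd := K.bd
  chain := fun f => wk_chain (K.wk f)
  closed := fun f => wk_closed (K.wk f)
  once := K.once
  ne := K.ne
  conn := K.conn
  dconn := K.dconn
  euler := K.euler

section count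

variable {E F : Type} [Fintype F] [DecidableEq E] {bd : Option F → List (E × Bool)}

theorem exists_face (once : ∀ d, ∑ f, (bd f).count d = 1) (d : E × Bool) : ∃ f, d ∈ bd f := by
  by_contra h
  push Not at h
  have := once d
  rw [Finset.sum_eq_zero (fun f _ => List.count_eq_zero.2 (h f))] at this
  omega

theorem face_unique [DecidableEq F] (once : ∀ d, ∑ f, (bd f).count d = 1) {d : E × Bool}
    {f g : Option F} (hf : d ∈ bd f) (hg : d ∈ bd g) : f = g := by
  by_contra h
  have h1 := once d
  have h2 : (bd f).count d + (bd g).count d ≤ ∑ f, (bd f).count d := by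
    have := Finset.sum_le_sum_of_subset (f := fun f => (bd f).count d)
      (Finset.subset_univ ({f, g} : Finset (Option F)))
    rwa [Finset.sum_pair h] at this
  have h3 := List.count_pos_iff.2 hf
  have h4 := List.count_pos_iff.2 hg
  omega

theorem count_le_one (once : ∀ d, ∑ f, (bd f).count d = 1) (d : E × Bool) (f : Option F) :
    (bd f).count d ≤ 1 := by
  rw [← once d]
  exact Finset.single_le_sum (f := fun f => (bd f).count d) (fun _ _ => Nat.zero_le _)
    (Finset.mem_univ f)

theorem bd_nodup (once : ∀ d, ∑ f, (bd f).count d = 1) (f : Option F) : (bd f).Nodup :=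
  List.nodup_iff_count_le_one.2 (fun d => count_le_one once d f)

/-- sum over all darts of a function times a function of the face -/
theorem sum_face [Fintype E] (once : ∀ d, ∑ f, (bd f).count d = 1) (fc : E × Bool → Option F)
    (hfc : ∀ d, d ∈ bd (fc d)) (χ : Option F → ℚ) (h : E × Bool → ℚ) :
    ∑ d, χ (fc d) * h d = ∑ f, χ f * ((bd f).map h).sum := by
  classical
  have h1 : ∀ f, ((bd f).map h).sum = ∑ d, if fc d = f then h d else 0 := by
    intro f
    rw [← List.sum_toFinset h (bd_nodup once f), ← Finset.sum_filter]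
    refine Finset.sum_congr ?_ (fun _ _ => rfl)
    ext d
    simp only [List.mem_toFinset, Finset.mem_filter, Finset.mem_univ, true_and]
    constructor
    · intro hd
      exact face_unique once (hfc d) hd
    · rintro rfl
      exact hfc d
  simp_rw [h1, Finset.mul_sum]
  rw [Finset.sum_comm]
  refine Finset.sum_congr rfl (fun d _ => ?_)
  rw [Finset.sum_eq_single (fc d)]
  · simp
  · intro b _ hb
    simp [Ne.symm hb]
  · simp

end count

section lin

variable {V E F : Type} [Fintype V] [Fintype E] [Fintype F] [DecidableEq E] [DecidableEq F]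
  {org : E × Bool → V} {bd : Option F → List (E × Bool)} {root : Option F → V}

theorem fin1 {X : Type} [Fintype X] (v : X → ℚ) :
    Module.finrank ℚ (Submodule.span ℚ {v}) ≤ 1 := by
  have := finrank_span_finset_le_card (R := ℚ) ({v} : Finset (X → ℚ))
  rw [Finset.coe_singleton, Finset.card_singleton] at this
  exact this

omit [Fintype V] [DecidableEq F] in
/-- orthogonality of coboundaries and boundaries -/
theorem ortho (wk : ∀ f, Wk org (root f) (bd f) (root f))
    (once : ∀ d, ∑ f, (bd f).count d = 1) (fc : E × Bool → Option F)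
    (hfc : ∀ d, d ∈ bd (fc d)) (χ : Option F → ℚ) (g : V → ℚ) :
    ∑ e : E, (χ (fc (e, true)) - χ (fc (e, false))) * (g (org (e, false)) - g (org (e, true))) = 0 := by
  have h1 := sum_face once fc hfc χ (fun x => g (org (rv x)) - g (org x))
  have h2 : ∑ f, χ f * ((bd f).map (fun x => g (org (rv x)) - g (org x))).sum = 0 := by
    refine Finset.sum_eq_zero (fun f _ => ?_)
    rw [wk_tele g (wk f)]
    simp
  rw [h2, Fintype.sum_prod_type] at h1
  rw [← h1]
  refine Finset.sum_congr rfl (fun e _ => ?_)
  simp only [Fintype.sum_bool, rv, Bool.not_true, Bool.not_false]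
  ring

/-- the inequality `V + F ≤ E + 1` -/
theorem card_le (wk : ∀ f, Wk org (root f) (bd f) (root f))
    (once : ∀ d, ∑ f, (bd f).count d = 1)
    (conn : ∀ u v : V, Relation.ReflTransGen (fun a b => ∃ d, org d = a ∧ org (rv d) = b) u v)
    (dconn : ∀ f g : Option F,
      Relation.ReflTransGen (fun a b => ∃ d, d ∈ bd a ∧ rv d ∈ bd b) f g) :
    Fintype.card V + Fintype.card F ≤ Fintype.card E + 1 := by
  classical
  choose fc hfc using exists_face once
  let A : (V → ℚ) →ₗ[ℚ] (E → ℚ) :=
    { toFun := fun g e => g (org (e, false)) - g (org (e, true))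
      map_add' := by intro g h; ext e; simp; ring
      map_smul' := by intro c g; ext e; simp; ring }
  let B : (Option F → ℚ) →ₗ[ℚ] (E → ℚ) :=
    { toFun := fun χ e => χ (fc (e, true)) - χ (fc (e, false))
      map_add' := by intro g h; ext e; simp; ring
      map_smul' := by intro c g; ext e; simp; ring }
  have hA : ∀ g : V → ℚ, g ∈ LinearMap.ker A → ∀ u v, g u = g v := by
    intro g hg u v
    have h1 : ∀ e, g (org (e, false)) = g (org (e, true)) := by
      intro e
      have := congrFun (LinearMap.mem_ker.1 hg) e
      exact sub_eq_zero.1 this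
    have h2 := conn u v
    induction h2 with
    | refl => rfl
    | tail _ h ih =>
      obtain ⟨d, rfl, rfl⟩ := h
      rw [ih]
      rcases d with ⟨e, b⟩
      cases b
      · simpa [rv] using h1 e
      · simpa [rv] using (h1 e).symm
  have hB : ∀ g : Option F → ℚ, g ∈ LinearMap.ker B → ∀ u v, g u = g v := by
    intro g hg u v
    have h1 : ∀ e, g (fc (e, true)) = g (fc (e, false)) := by
      intro e
      have := congrFun (LinearMap.mem_ker.1 hg) e
      exact sub_eq_zero.1 this
    have h2 := dconn u v
    induction h2 with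
    | refl => rfl
    | tail _ h ih =>
      obtain ⟨d, hd1, hd2⟩ := h
      rw [ih, face_unique once hd1 (hfc d), face_unique once hd2 (hfc (rv d))]
      rcases d with ⟨e, b⟩
      cases b
      · simpa [rv] using (h1 e).symm
      · simpa [rv] using h1 e
  have kA : Module.finrank ℚ (LinearMap.ker A) ≤ 1 := by
    refine le_trans (Submodule.finrank_mono (t := Submodule.span ℚ {fun _ => (1 : ℚ)}) ?_)
      (fin1 _)
    intro g hg
    rw [Submodule.mem_span_singleton]
    rcases isEmpty_or_nonempty V with hV | ⟨⟨v⟩⟩
    · exact ⟨0, by ext x; exact hV.elim x⟩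
    · exact ⟨g v, by ext x; simp [hA g hg x v]⟩
  have kB : Module.finrank ℚ (LinearMap.ker B) ≤ 1 := by
    refine le_trans (Submodule.finrank_mono (t := Submodule.span ℚ {fun _ => (1 : ℚ)}) ?_)
      (fin1 _)
    intro g hg
    rw [Submodule.mem_span_singleton]
    exact ⟨g none, by ext x; simp [hB g hg x none]⟩
  have rA := LinearMap.finrank_range_add_finrank_ker A
  have rB := LinearMap.finrank_range_add_finrank_ker B
  have hdis : Disjoint (LinearMap.range A) (LinearMap.range B) := by
    rw [Submodule.disjoint_def]
    rintro x ⟨g, rfl⟩ ⟨χ, hχ⟩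
    have h3 := ortho wk once fc hfc χ g
    have h4 : ∑ e, (A g e) * (A g e) = 0 := by
      rw [← h3]
      refine Finset.sum_congr rfl (fun e _ => ?_)
      have : A g e = χ (fc (e, true)) - χ (fc (e, false)) := by rw [← hχ]; rfl
      nth_rw 1 [this]
      rfl
    ext e
    have h5 := (Finset.sum_eq_zero_iff_of_nonneg (fun e _ => mul_self_nonneg (A g e))).1 h4 e
      (Finset.mem_univ _)
    simpa using h5
  have h6 := Submodule.finrank_add_finrank_le_of_disjoint hdis
  rw [Module.finrank_fintype_fun_eq_card] at h6 rA rB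
  rw [Fintype.card_option] at rB
  omega

end lin

end Vale.Agent.P201.Z.VK
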